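import Vale.Agent.P088.R2.H238.C.Loc
import Vale.Agent.P088.R2.H509.EP.Lit2
import Vale.Agent.P088.R2.H724.B1.Mod

/-!
# P088, zone B1: the family of all cells

Index: constants, data, centre, frozen data, smallness `η`. `T q η`: thresholds (`EvC` for each `η`).
-/

open Finset Set Filter
open scoped ContDiff Topology

noncomputable section

namespace Vale.Agent.P088.R2.H724.B1

open Vale.Agent.P088.LR Vale.Agent.P088.HY
open Vale.Agent.P088.R2.H31.EP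
open Vale.Agent.P088.R2.H464.Cu (mid)
open Vale.Agent.P088.R2.H464.B (Ge Hy Hm Hs Sc)
open Vale.Agent.P088.R2.H961.F
open Vale.Agent.P088.R2.H238.C (Gz Th Te isOpen_Gz)
open Vale.Agent.P088.R2.H516.B (mu)

variable {n : ℕ}

/-- `f = l + μc ∘ l`: `u = 2 f(p) + σ |x - y|² / (4 R)` on `Gz`. -/
def ff (q : Cst) (d : Pk n) (p : V n) : ℝ := d.l p + d.μc q (d.l p)

/-- **The open region of the core**: it contains the support of `d.ch q .zB`. -/
def OB (q : Cst) (d : Pk n) : Set (VV n) :=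
  {z | z ∈ Gz q d ∧ d.u q z < d.utb q ∧ d.N q z ^ (13 / 5 : ℝ) < 2 * d.E q z ∧
    d.m q z < 3 * q.Λ * d.m₁ q (d.u q z)}

/-- The cube with centre `p₀` and half side `3 A / 2`. -/
def Cub (A : ℝ) (p₀ : V n) : Set (V n) := {p | ∀ j, |p j - p₀ j| < 3 / 2 * A}

/-- The cell. -/
def Zk (q : Cst) (d : Pk n) (A : ℝ) (p₀ : V n) : Set (VV n) :=
  OB q d ∩ {z | mid z ∈ Cub A p₀}

/-- The frozen data of the cell. -/
structure Fro (q : Cst) (d : Pk n) (A : ℝ) (p₀ : V n) (c : CD n) : Prop where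
  M : c.M * c.M.transpose = d.s₁ p₀
  e : c.E₀ = 1
  l : ∀ p ∈ Cub A p₀, c.l p = ff q d p
  φ : ∀ p ∈ Cub A p₀, c.φ p = d.Φ (2 * ff q d p)

/-- **The index of the family** (`T`: the thresholds of everybody, `EvC` for each `η > 0`). -/
structure Ix (n : ℕ) (A : ℝ) (T : Cst → ℝ → Prop) where
  q : Cst
  d : Pk n
  p : V n
  c : CD n
  η : ℝ
  ok : PkOk q d
  th : Th q
  te : Te n q
  fr : Fro q d A p c
  η0 : 0 < η
  η1 : η ≤ 1
  t : T q η

variable {A : ℝ} {T : Cst → ℝ → Prop}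

/-- The cell of an index. -/
def Ix.Z (x : Ix n A T) : Set (VV n) := Zk x.q x.d A x.p

/-- The true weight. -/
def Ix.W (x : Ix n A T) (z : VV n) : ℝ := x.d.W x.q z

/-- `N`: the slope of the model. -/
def fN (x : Ix n A T) (z : VV n) : ℝ := deriv x.d.Φ (2 * ff x.q x.d (mid z))

/-- All points near `p₀` are in the flat part. -/
def Flat (q : Cst) (A : ℝ) (p₀ : V n) : Prop :=
  ∀ x : V n, (∀ j, |x j - p₀ j| ≤ 3 / 2 * A + 1) → 2 * q.R < √(HY.sq x)

open Classical in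
/-- `κ = ε / R` (`0` in the flat part) plus a size for the difference of the tensors. -/
def kq (q : Cst) (d : Pk n) (A : ℝ) (p₀ : V n) : ℝ :=
  (if Flat q A p₀ then 0 else q.ε / q.R) + min (1 / 2) (Real.exp (-(2 * d.l p₀)))

/-- `κ` of an index. -/
def kp (x : Ix n A T) : ℝ := kq x.q x.d A x.p

/-- `δ = κ + r`. -/
def fδ (x : Ix n A T) (z : VV n) : ℝ := kp x + H961.F.fr (fun x : Ix n A T => x.c) x z

/-- `κ`. -/
def fκ (x : Ix n A T) (_ : VV n) : ℝ := kp x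

/-- **The numerical conditions**: `(κ + r) μ ≤ η`, `κ (N + μ) ≤ η`, `1 ≤ η (N + μ)` on the cells. -/
def Nb (n : ℕ) (q : Cst) (A η : ℝ) : Prop :=
  ∀ d : Pk n, PkOk q d → ∀ (p₀ : V n) (c : CD n), Fro q d A p₀ c → ∀ z ∈ Zk q d A p₀,
    (kq q d A p₀ + √((mu c.T : VV n → ℝ) z / (c.T.e : VV n → ℝ) z)) * (mu c.T : VV n → ℝ) z ≤ η ∧
    kq q d A p₀ * (deriv d.Φ (2 * ff q d (mid z)) + (mu c.T : VV n → ℝ) z) ≤ η ∧
    1 ≤ η * (deriv d.Φ (2 * ff q d (mid z)) + (mu c.T : VV n → ℝ) z)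

end Vale.Agent.P088.R2.H724.B1
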