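import Vale.Agent.P088.R2.H724.B1.Siz

/-!
# P088, zone B1: the size of the difference of the tensors
-/

open Finset Set Filter
open scoped ContDiff Topology

noncomputable section

set_option linter.unusedSectionVars false

namespace Vale.Agent.P088.R2.H724.B1

open Vale.Agent.P088.LR Vale.Agent.P088.HY Vale.Agent.P088.HY.T3 Vale.Agent.P088.HY.T4
open Vale.Agent.P088.R2.H31.EP
open Vale.Agent.P088.R2.H475
open Vale.Agent.P088.R2.H464.Cu (mid)
open Vale.Agent.P088.R2.H961.F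
open Vale.Agent.P088.R2.H238.C (Gz Th Te Gp ww l_lip near_th)
open Vale.Agent.P088.R2.H516.B (mu)
open Vale.Agent.P088.R2.H696.B1 (TB PB pB NuB vB)

variable {n : ℕ} {A : ℝ} {T : Cst → ℝ → Prop}

open Classical in
/-- The size of `s₁ - s₂`. -/
def ax (x : Ix n A T) : ℝ :=
  if x.Z.Nonempty then min 1 (Real.exp (-(3 * x.d.l x.p))) else 1

theorem ax_nn (x : Ix n A T) : 0 ≤ ax x := by
  unfold ax
  split
  · exact le_min zero_le_one (Real.exp_pos _).le
  · exact zero_le_one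

/-- The Euclidean norm of a vector with small entries. -/
theorem en_n {v : V n} {b : ℝ} (hb : 0 ≤ b) (h : ∀ j, |v j| ≤ b) : √(HY.sq v) ≤ n * b := by
  rw [Real.sqrt_le_left (by positivity)]
  have h1 : HY.sq v ≤ ∑ _j : Fin n, b ^ 2 := by
    unfold HY.sq
    refine Finset.sum_le_sum fun j _ => ?_
    rw [← sq_abs]
    exact pow_le_pow_left₀ (abs_nonneg _) (h j) 2
  rw [Finset.sum_const, Finset.card_univ, Fintype.card_fin, nsmul_eq_mul] at h1
  refine h1.trans ?_
  rw [mul_pow]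
  refine mul_le_mul_of_nonneg_right ?_ (sq_nonneg b)
  rcases Nat.eq_zero_or_pos n with rfl | hn
  · norm_num
  · have : (1 : ℝ) ≤ n := by exact_mod_cast hn
    nlinarith

/-- The radius of a cell. -/
def D0 (n : ℕ) (A : ℝ) : ℝ := 101 / 100 * (n * (3 * A + 1))

variable (hA : 0 ≤ A) (hR : ∀ q η, T q η → n * (3 * A + 1) ≤ q.R / 2)
include hA hR

theorem near_p (x : Ix n A T) {z : VV n} (hz : z ∈ x.Z) {w : V n}
    (hw : ∀ j, |w j - x.p j| ≤ 3 / 2 * A + 1) : √(HY.sq (w - mid z)) ≤ n * (3 * A + 1) := by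
  refine en_n (by positivity) fun j => ?_
  have h1 := (hz.2 j).le
  have h2 := hw j
  have h3 : (w - mid z) j = (w j - x.p j) - (mid z j - x.p j) := by
    rw [Pi.sub_apply]; ring
  rw [h3]
  refine (abs_sub _ _).trans ?_
  linarith

theorem l_near (x : Ix n A T) {z : VV n} (hz : z ∈ x.Z) {w : V n}
    (hw : ∀ j, |w j - x.p j| ≤ 3 / 2 * A + 1) :
    |x.d.l w - x.d.l (mid z)| ≤ D0 n A := by
  have h1 := near_p hA hR x hz hw
  have h2 := l_lip x.ok x.th (hz.1.1.2.2.1) (h1.trans (hR _ _ x.t))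
  refine h2.trans ?_
  unfold D0
  linarith

theorem lv_near (hn : 1 ≤ n) (x : Ix n A T) {z : VV n} (hz : z ∈ x.Z) {w : V n}
    (hw : ∀ j, |w j - x.p j| ≤ 3 / 2 * A + 1) :
    lv n x.q.σ x.q.R x.d.kap x.d.Gs w = x.d.l w := by
  have h1 := near_p hA hR x hz hw
  have h2 := near_th x.ok x.th (hz.1.1.2.2.1) (h1.trans (hR _ _ x.t))
  rw [x.ok.lev.lit]
  exact (levG_eq_lv hn x.th.σ0 x.th.σ1 h2).symm

theorem l_ctr (x : Ix n A T) {z : VV n} (hz : z ∈ x.Z) :
    |x.d.l x.p - x.d.l (mid z)| ≤ D0 n A :=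
  l_near hA hR x hz fun j => by rw [sub_self, abs_zero]; linarith

/-- **The tensors differ little.** -/
theorem ax_hA (hn : 1 ≤ n) : ∃ C, ∀ x : Ix n A T, ∀ w : V n,
    (∀ j, |w j - x.p j| ≤ 3 / 2 * A + 1) →
    x.q.ε * min 1 (Real.exp (-(100 * lv n x.q.σ x.q.R x.d.kap x.d.Gs w))) ≤ C * ax x := by
  have hD : 0 ≤ D0 n A := by unfold D0; positivity
  refine ⟨Real.exp (200 * D0 n A), fun x w hw => ?_⟩
  have e1 : 1 ≤ Real.exp (200 * D0 n A) := Real.one_le_exp (by positivity)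
  have hm0 : 0 ≤ min 1 (Real.exp (-(100 * lv n x.q.σ x.q.R x.d.kap x.d.Gs w))) :=
    le_min zero_le_one (Real.exp_pos _).le
  have hm1 : min 1 (Real.exp (-(100 * lv n x.q.σ x.q.R x.d.kap x.d.Gs w))) ≤ 1 := min_le_left _ _
  have h0 : x.q.ε * min 1 (Real.exp (-(100 * lv n x.q.σ x.q.R x.d.kap x.d.Gs w))) ≤
      min 1 (Real.exp (-(100 * lv n x.q.σ x.q.R x.d.kap x.d.Gs w))) :=
    mul_le_of_le_one_left hm0 x.te.ε1
  refine h0.trans ?_
  unfold ax
  split
  · rename_i hne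
    obtain ⟨z, hz⟩ := hne
    rw [lv_near hA hR hn x hz hw]
    have h1 := abs_le.1 (l_near hA hR x hz hw)
    have h2 := abs_le.1 (l_ctr hA hR x hz)
    rcases le_total 0 (x.d.l x.p) with hl | hl
    · have h3 : min 1 (Real.exp (-(3 * x.d.l x.p))) = Real.exp (-(3 * x.d.l x.p)) :=
        min_eq_right (Real.exp_le_one_iff.2 (by linarith))
      rw [h3, ← Real.exp_add]
      refine (min_le_right _ _).trans (Real.exp_le_exp.2 ?_)
      linarith
    · have h3 : min 1 (Real.exp (-(3 * x.d.l x.p))) = 1 :=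
        min_eq_left (Real.one_le_exp (by linarith))
      rw [h3, mul_one]
      exact (min_le_left _ _).trans e1
  · rw [mul_one]
    exact hm1.trans e1

/-- **`a ≤ C κ r`.** -/
theorem ax_ak : ∃ C, ∀ x : Ix n A T, ∀ z ∈ x.Z, ax x ≤ C * (kp x * H961.F.fr cx x z) := by
  refine ⟨2 * Real.exp (D0 n A + 1 / 8), fun x z hz => ?_⟩
  have hr := r_pos cx x z
  -- `r ≥ exp (-(l (p) + D0 + 1/8))`
  have h1 : 1 ≤ Real.exp (x.d.l x.p + D0 n A + 1 / 8) * H961.F.fr cx x z := by
    have h2 := er2 cx x z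
    have h3 := mu_ge cx x z
    rw [← h2, fe_ix x hz] at h3
    have h4 : Real.exp (vB x.q x.d z) ≤ Real.exp (x.d.l x.p + D0 n A + 1 / 8) ^ 2 := by
      rw [← Real.exp_nat_mul, Real.exp_le_exp]
      have h5 := abs_le.1 (l_ctr hA hR x hz)
      have h6 : x.d.μc x.q (x.d.l (mid z)) ≤ 1 / 8 := by
        have h7 := (abs_le.1 (x.ok.ph.μb (x.d.l (mid z)))).2
        have h8 := Real.smoothTransition.nonneg (2 * ((x.d.l (mid z) - x.d.l₀ x.q) / x.q.R) - 1)
        have h9 := Real.smoothTransition.le_one (2 * ((x.d.l (mid z) - x.d.l₀ x.q) / x.q.R) - 1)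
        unfold Pk.μc
        calc x.d.μ (x.d.l (mid z)) *
              (1 - Real.smoothTransition (2 * ((x.d.l (mid z) - x.d.l₀ x.q) / x.q.R) - 1)) ≤
            1 / 8 * (1 - Real.smoothTransition (2 * ((x.d.l (mid z) - x.d.l₀ x.q) / x.q.R) - 1)) :=
              mul_le_mul_of_nonneg_right h7 (by linarith)
          _ ≤ 1 / 8 := by linarith
      unfold vB
      push_cast
      linarith
    have h10 : 1 ≤ (Real.exp (x.d.l x.p + D0 n A + 1 / 8) * H961.F.fr cx x z) ^ 2 := by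
      rw [mul_pow]
      exact h3.trans (mul_le_mul_of_nonneg_right h4 (sq_nonneg _))
    by_contra hc
    have h11 := not_le.1 hc
    have h12 : (Real.exp (x.d.l x.p + D0 n A + 1 / 8) * H961.F.fr cx x z) ^ 2 < 1 :=
      pow_lt_one₀ (by positivity) h11 two_ne_zero
    linarith
  -- `κ ≥ min (1/2) (exp (-2 l))`
  have hk : min (1 / 2) (Real.exp (-(2 * x.d.l x.p))) ≤ kp x := by
    have h2 : 0 ≤ x.q.ε / x.q.R := div_nonneg x.te.ε0.le (by linarith [x.th.R1])
    show _ ≤ kq x.q x.d A x.p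
    unfold kq
    split
    · rw [zero_add]
    · linarith
  have hk0 : 0 ≤ min (1 / 2) (Real.exp (-(2 * x.d.l x.p))) :=
    le_min (by norm_num) (Real.exp_pos _).le
  have h2 : Real.exp (x.d.l x.p + D0 n A + 1 / 8) =
      Real.exp (D0 n A + 1 / 8) * Real.exp (x.d.l x.p) := by
    rw [← Real.exp_add]; congr 1; ring
  have h3 : Real.exp (-x.d.l x.p) ≤ Real.exp (D0 n A + 1 / 8) * H961.F.fr cx x z := by
    rw [h2] at h1
    have h4 := mul_le_mul_of_nonneg_left h1 (Real.exp_pos (-x.d.l x.p)).le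
    rw [mul_one] at h4
    refine h4.trans (le_of_eq ?_)
    have h5 : Real.exp (-x.d.l x.p) * Real.exp (x.d.l x.p) = 1 := by
      rw [← Real.exp_add, neg_add_cancel, Real.exp_zero]
    calc _ = (Real.exp (-x.d.l x.p) * Real.exp (x.d.l x.p)) *
          (Real.exp (D0 n A + 1 / 8) * H961.F.fr cx x z) := by ring
      _ = _ := by rw [h5, one_mul]
  have h4 : ax x ≤ 2 * (min (1 / 2) (Real.exp (-(2 * x.d.l x.p))) * Real.exp (-x.d.l x.p)) := by
    have hne : x.Z.Nonempty := ⟨z, hz⟩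
    unfold ax
    rw [if_pos hne]
    rcases le_total 0 (x.d.l x.p) with hl | hl
    · refine (min_le_right _ _).trans ?_
      have e : Real.exp (-(3 * x.d.l x.p)) = Real.exp (-(2 * x.d.l x.p)) * Real.exp (-x.d.l x.p) := by
        rw [← Real.exp_add]; congr 1; ring
      rw [e, ← mul_assoc]
      refine mul_le_mul_of_nonneg_right ?_ (Real.exp_pos _).le
      rcases min_cases (1 / 2 : ℝ) (Real.exp (-(2 * x.d.l x.p))) with ⟨h5, _⟩ | ⟨h5, _⟩
      · rw [h5]
        have := Real.exp_le_one_iff.2 (show -(2 * x.d.l x.p) ≤ 0 by linarith)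
        linarith
      · rw [h5]
        have := Real.exp_pos (-(2 * x.d.l x.p))
        linarith
    · refine (min_le_left _ _).trans ?_
      have h5 : 1 ≤ Real.exp (-(2 * x.d.l x.p)) := Real.one_le_exp (by linarith)
      have h6 : 1 ≤ Real.exp (-x.d.l x.p) := Real.one_le_exp (by linarith)
      rw [min_eq_left (by linarith)]
      linarith
  calc ax x ≤ 2 * (min (1 / 2) (Real.exp (-(2 * x.d.l x.p))) * Real.exp (-x.d.l x.p)) := h4
    _ ≤ 2 * (kp x * (Real.exp (D0 n A + 1 / 8) * H961.F.fr cx x z)) := by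
        refine mul_le_mul_of_nonneg_left ?_ zero_le_two
        exact mul_le_mul hk h3 (Real.exp_pos _).le (hk0.trans hk)
    _ = _ := by ring

end Vale.Agent.P088.R2.H724.B1
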