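import Vale.Agent.P088.R2.H724.B1.H0
import Vale.Agent.P088.R2.H724.B1.Ax
import Vale.Agent.P088.R2.H644.B1.In3
import Vale.Agent.P088.R2.H657.B1.Ixm
import Vale.Agent.P088.R2.H968.B1.Hqw

/-!
# P088, zone B1: the classes on the family of all cells
-/

open Finset Set Filter
open scoped ContDiff Topology

noncomputable section

set_option linter.unusedSectionVars false

namespace Vale.Agent.P088.R2.H724.B1

open Vale.Agent.P088.LR Vale.Agent.P088.HY
open Vale.Agent.P088.R2.H31.EP
open Vale.Agent.P088.R2.H464.Cu (mid)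
open Vale.Agent.P088.R2.H464.B (Ge Hy Sc Sz Hq zr)
open Vale.Agent.P088.R2.H961.F
open Vale.Agent.P088.R2.H238.C (Gz Th Te)
open Vale.Agent.P088.R2.H516.B (mu)
open Vale.Agent.P088.R2.H696.B1 (TB PB pB NuB vB)
open Vale.Agent.P088.R2.H644.B1 (Us Us_open TL)
open Vale.Agent.P088.R2.H968.B1 (xL xLm xF xS xg)

variable {n : ℕ} {A : ℝ} {T : Cst → ℝ → Prop}

/-- **The thresholds.** -/
structure Tx (n : ℕ) (A : ℝ) (ph : PhC) (q : Cst) (η : ℝ) : Prop where
  ph : q.ph = ph
  e1 : 0 < q.e₁
  tb : ∃ e : Cst → ℝ, TB n e q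
  tl : TL n q
  nb : Nb n q A η
  nR : n * (3 * A + 1) ≤ q.R / 2

section

variable {ph : PhC}

/-- The family of all cells satisfies the hypotheses of helper464's `Hq`. -/
theorem hq_ix (hn : 1 ≤ n) (hA : 1 ≤ A) (hT : ∀ q η, T q η → Tx n A ph q η)
    (hZ : ∀ x : Ix n A T, IsOpen x.Z) :
    Hq (fun x : Ix n A T => x.c) Ix.Z hZ (fun x => x.d.s₁) (fun x => x.d.s₂)
      (fun x => gi x.d.s₁) Us Us_open (ft (fun x : Ix n A T => x.c) fN) fδ xL xLm kp ax xF xS
      Ix.W := by
  have hA0 : 0 ≤ A := by linarith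
  have hR : ∀ q η, T q η → n * (3 * A + 1) ≤ q.R / 2 := fun q η h => (hT q η h).nR
  have hTL : ∀ q η, T q η → TL n q := fun q η h => (hT q η h).tl
  have hTB : ∀ x : Ix n A T, ∃ e : Cst → ℝ, TB n e x.q := fun x => (hT _ _ x.t).tb
  have he1 : ∀ x : Ix n A T, 0 < x.q.e₁ := fun x => (hT _ _ x.t).e1
  have mq := H657.B1.mq_ix (n := n) (A := A) (T := T) (U := Us) hA0 fun x w hw j => H644.B1.Us_near hw j
  have r0 : ∀ (x : Ix n A T) z, 0 ≤ H961.F.fr (fun x : Ix n A T => x.c) x z := fun x z =>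
    (r_pos (fun x : Ix n A T => x.c) x z).le
  have kd : ∀ (x : Ix n A T) z, kp x ≤ fδ x z := fun x z => le_add_of_nonneg_right (r0 x z)
  have d0 : ∀ (x : Ix n A T) z, 0 ≤ fδ x z := fun x z => (mq.k0 x).trans (kd x z)
  exact
    { rt := fun x z _ => rt_of (fN_pos x z).le
      t1 := fun x z hz => by
        obtain ⟨e, he⟩ := hTB x
        exact t1_of (sz_ix x he hz)
      d0 := fun x z _ => d0 x z
      d1 := fun x z hz => by
        have h1 := (nb_ix x (hT _ _ x.t).nb hz).1
        have h2 := mu_ge cx x z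
        have h3 := mul_le_mul_of_nonneg_left h2 (d0 x z)
        have := x.η1
        linarith
      rd := ⟨1, fun x z _ => by
        rw [one_mul]
        exact le_add_of_nonneg_left (mq.k0 x)⟩
      k0 := mq.k0
      kd := ⟨1, fun x z _ => by
        rw [one_mul]
        exact kd x z⟩
      a0 := ax_nn
      ad := by
        obtain ⟨C, hC⟩ := ax_ak (T := T) hA0 hR
        refine ⟨|C|, fun x z hz => (hC x z hz).trans ?_⟩
        calc C * (kp x * H961.F.fr cx x z) ≤ |C| * (kp x * H961.F.fr cx x z) :=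
              mul_le_mul_of_nonneg_right (le_abs_self C) (mul_nonneg (mq.k0 x) (r0 x z))
          _ ≤ |C| * (fδ x z * H961.F.fr cx x z) :=
              mul_le_mul_of_nonneg_left (mul_le_mul_of_nonneg_right (kd x z) (r0 x z))
                (abs_nonneg C)
      cv := H644.B1.cv_ix
      m1 := H644.B1.m1_ix hA0
      m2 := H644.B1.m2_ix hA0
      sL := H644.B1.sL_ix
      sLm := H644.B1.sLm_ix
      hL := H644.B1.hL_ix hTL hn
      hLm := H644.B1.hLm_ix hTL hn
      he := fun x z hz => H968.B1.xhe x hz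
      s1 := mq.s1 Us_open
      s2 := mq.s2 Us_open
      sk := mq.sk Us_open
      h1 := mq.h1 Us_open (by norm_num)
      h2 := mq.h2 Us_open (by norm_num) ax_nn (by
        obtain ⟨C, hC⟩ := ax_hA (T := T) hA0 hR hn
        exact ⟨C, fun x w hw => hC x w fun j => H644.B1.Us_near hw j⟩)
      hk := mq.hk Us_open (by norm_num)
      cF := H968.B1.xcF
      cS := H968.B1.xcS he1
      hF := fun m _ => H968.B1.xhF (ph := ph) (fun x => (hT _ _ x.t).ph) hTB (fun x z _ => by
        have h1 := ert (fun x : Ix n A T => x.c) fN x z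
        have h2 := mu_ge (fun x : Ix n A T => x.c) x z
        rw [h1]
        show fN x z ≤ fN x z + _
        linarith) m
      hS := fun m _ => H968.B1.xhS he1 m
      S0 := H968.B1.xS0
      S1 := H968.B1.xS1 he1
      eW := H968.B1.xeW
      eφ := H968.B1.xeφ }

end

end Vale.Agent.P088.R2.H724.B1
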