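import Vale.Agent.P088.R2.H724.B1.Inst
import Vale.Agent.P088.R2.H960.B1.Num
import Vale.Agent.P088.R2.H942.B1.Hs
import Vale.Agent.P088.R2.H867.Z.CbT

/-!
# P088, zone B1: **the row of the classes of the family of all cells**
-/

open Finset Set Filter
open scoped ContDiff Topology

noncomputable section

set_option linter.unusedSectionVars false

namespace Vale.Agent.P088.R2.H724.B1

open Vale.Agent.P088.LR Vale.Agent.P088.HY
open Vale.Agent.P088.R2.H31.EP
open Vale.Agent.P088.R2.H464.Cu (mid)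
open Vale.Agent.P088.R2.H961.F
open Vale.Agent.P088.R2.H516.B (mu)
open Vale.Agent.P088.R2.H696.B1 (TB)
open Vale.Agent.P088.R2.H644.B1 (TL Us Us_open)
open Vale.Agent.P088.R2.H867.CbT (FamC RowF)

variable {n : ℕ} {A : ℝ} {T : Cst → ℝ → Prop} {ph : PhC}

/-- **The classes.** -/
theorem famC (hn : 1 ≤ n) (hA : 1 ≤ A) (hT : ∀ q η, T q η → Tx n A ph q η) : FamC n A T := by
  have hZ : ∀ x : Ix n A T, IsOpen x.Z := fun x => by
    obtain ⟨e, he⟩ := (hT _ _ x.t).tb
    exact Z_op x he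
  have hA0 : 0 ≤ A := by linarith
  have H := hq_ix (ph := ph) hn hA hT hZ
  have mq := H657.B1.mq_ix (n := n) (A := A) (T := T) (U := Us) hA0
    fun x w hw j => H644.B1.Us_near hw j
  exact
    { op := hZ
      sW := fun x => by
        obtain ⟨e, he⟩ := (hT _ _ x.t).tb
        have hs := he.nr.sm x.d x.ok
        exact WT_smooth x.ok.ok x.ok.Θs x.ok.ret.sm x.ok.lev.sm hs.g
      H := H.hy
      H₀ := Hq_h0 H
      hm := Hq_hm H mq.k1 (ax_ak hA0 fun q η h => (hT q η h).nR)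
      hs := H942.B1.hs_cf _ _ _ (fun x i j => x.ok.rg.sm₁ i j) (fun x i j => x.ok.rg.sm₂ i j)
        (fun x w i j => ((x.ok.rg.sy₁ w).apply i j).symm)
        (fun x w i j => ((x.ok.rg.sy₂ w).apply i j).symm)
      sc := ⟨1, zero_le_one, by
        simp only [one_mul]
        exact sc_ix hZ fun q η h => (hT q η h).nb⟩ }

/-- **The row.** -/
theorem rowF (hn : 1 ≤ n) : RowF n := by
  intro A hA
  refine ⟨fun ph _ q η => Tx n A ph q η, fun ph _ => famC hn hA fun _ _ h => h,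
    fun η hη h0 => ?_⟩
  have h1 := H960.B1.nb_ev (n := n) hn (A := fun _ => A) (fun _ => rfl) hη
    ((EvC.pos).mono fun q _ => ⟨(h0 q).1, hA⟩)
  have h2 := TB.ev n (e := fun _ => 1) (fun _ => rfl)
    ((EvC.pos).mono fun q _ => ⟨one_pos, le_rfl⟩)
  have h3 : EvC fun q => n * (3 * A + 1) ≤ q.R / 2 :=
    EvC.at_R (fun _ t => n * (3 * A + 1) ≤ t / 2) fun _ =>
      (tendsto_id.atTop_div_const (by norm_num)).eventually_ge_atTop _
  refine (((h1.and h2).and (h3.and (TL.ev n))).and EvC.pos).mono ?_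
  rintro q ⟨⟨⟨a1, a2⟩, a3, a4⟩, b⟩
  exact { ph := rfl, e1 := by tauto, tb := ⟨_, a2⟩, tl := a4, nb := a1, nR := a3 }

end Vale.Agent.P088.R2.H724.B1
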