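import Vale.Agent.P088.R2.H724.B1.Fam
import Vale.Agent.P088.R2.H591.B1.Mat
import Vale.Agent.P088.R2.H696.B1.Pt

/-!
# P088, zone B1: the sizes on the family of all cells
-/

open Finset Set Filter
open scoped ContDiff Topology

noncomputable section

set_option linter.unusedSectionVars false

namespace Vale.Agent.P088.R2.H724.B1

open Vale.Agent.P088.LR Vale.Agent.P088.HY
open Vale.Agent.P088.R2.H31.EP
open Vale.Agent.P088.R2.H464.Cu (mid)
open Vale.Agent.P088.R2.H464.B (Ge Hy Sc Sz)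
open Vale.Agent.P088.R2.H961.F
open Vale.Agent.P088.R2.H238.C (Gz Th Te isOpen_Gz)
open Vale.Agent.P088.R2.H516.B (mu)
open Vale.Agent.P088.R2.H696.B1 (TB PB pB NuB vB)

variable {n : ℕ} {A : ℝ} {T : Cst → ℝ → Prop}

/-- The data of an index. -/
def cx (x : Ix n A T) : CD n := x.c

/-! ## General -/

section gen

variable {α : Type} {c : α → CD n} {N : α → VV n → ℝ} {x : α} {z : VV n}

theorem rt_of (hN : 0 ≤ N x z) : H961.F.fr c x z ≤ ft c N x z := by
  have hp := mul_pos (fe_pos c x z) (r_pos c x z)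
  unfold ft
  rw [le_div_iff₀ hp]
  have h1 := er2 c x z
  have h3 : H961.F.fr c x z * (fe c x z * H961.F.fr c x z) = fe c x z * H961.F.fr c x z ^ 2 := by
    ring
  rw [h3, h1]
  unfold fν
  linarith

theorem t1_of (h : fν c N x z ^ 2 ≤ fe c x z * (mu (c x).T : VV n → ℝ) z) : ft c N x z ≤ 1 := by
  have hp := mul_pos (fe_pos c x z) (r_pos c x z)
  unfold ft
  rw [div_le_one hp]
  refine le_of_sq_le_sq ?_ hp.le
  have h1 := er2 c x z
  have h3 : (fe c x z * H961.F.fr c x z) ^ 2 = fe c x z * (fe c x z * H961.F.fr c x z ^ 2) := by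
    ring
  rw [h3, h1]
  exact h

end gen

/-! ## The family -/

/-- The stiffness. -/
theorem fe_ix (x : Ix n A T) {z : VV n} (hz : z ∈ x.Z) :
    fe cx x z = Real.exp (vB x.q x.d z) := by
  have h1 : fe cx x z = x.c.E₀ * Real.exp (2 * x.c.l ((1 / 2 : ℝ) • (z.1 + z.2))) := T_e x.c z
  have h2 : (1 / 2 : ℝ) • (z.1 + z.2) = mid z := rfl
  rw [h1, x.fr.e, one_mul, h2, x.fr.l (mid z) hz.2]
  rfl

theorem fN_pos (x : Ix n A T) (z : VV n) : 0 < fN x z := H238.C.N_pos x.ok x.th _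

/-- The frame. -/
theorem fm_ix (x : Ix n A T) : H591.B1.Fm x.q x.d x.p x.c.M x.c.N := ⟨x.c.nm, x.fr.M⟩

theorem mu_eq (x : Ix n A T) (z : VV n) : (mu (cx x).T : VV n → ℝ) z =
    1 + fe cx x z * ∑ i, (∑ k, x.c.N i k * (z.1 k - z.2 k)) ^ 2 := by
  change 1 + ((cx x).T.e : VV n → ℝ) z * ((cx x).T.qq : VV n → ℝ) z = _
  rw [T_qq]
  rfl

/-- `μ ≤ 1 + 2 m`. -/
theorem mu_le (x : Ix n A T) {e : Cst → ℝ} (hT : TB n e x.q) {z : VV n} (hz : z ∈ x.Z) :
    (mu (cx x).T : VV n → ℝ) z ≤ 1 + 2 * x.d.m x.q z := by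
  have hp := pB x.ok hT (z := z) hz.1
  rw [mu_eq, fe_ix x hz]
  have h1 : ∑ i, (∑ k, x.c.N i k * (z.1 k - z.2 k)) ^ 2 ≤ 102 / 100 * HY.sq (z.1 - z.2) :=
    (fm_ix x).n_up x.ok x.th x.te (z.1 - z.2)
  have h2 := H238.C.r2_ge x.ok x.th x.te z
  have h3 : 0 ≤ HY.sq (z.1 - z.2) := Finset.sum_nonneg fun i _ => sq_nonneg _
  have h4 := hp.ev
  have hE : 0 < x.d.E x.q z := Real.exp_pos _
  have h5 : x.d.m x.q z = x.d.E x.q z * x.d.r2 z := rfl
  rw [h5]
  have h6 : Real.exp (vB x.q x.d z) * ∑ i, (∑ k, x.c.N i k * (z.1 k - z.2 k)) ^ 2 ≤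
      x.d.E x.q z * (2 * x.d.r2 z) :=
    mul_le_mul h4 (by linarith) (Finset.sum_nonneg fun i _ => sq_nonneg _) hE.le
  linarith

/-- `(N + μ)² ≤ e μ`. -/
theorem sz_ix (x : Ix n A T) {e : Cst → ℝ} (hT : TB n e x.q) {z : VV n} (hz : z ∈ x.Z) :
    fν cx fN x z ^ 2 ≤ fe cx x z * (mu (cx x).T : VV n → ℝ) z := by
  have hp := pB x.ok hT (z := z) hz.1
  have h1 := mu_le x hT hz
  have h2 := mu_ge cx x z
  have h3 : fN x z ≤ x.d.N x.q z := hp.nN
  have h4 := fN_pos x z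
  have h5 : fν cx fN x z ≤ x.d.N x.q z + (1 + 2 * x.d.m x.q z) := by
    unfold fν
    linarith
  have h6 : 0 ≤ fν cx fN x z := by
    unfold fν
    linarith
  have h7 := pow_le_pow_left₀ h6 h5 2
  have h8 := hp.nu.m2
  have hE : 0 < x.d.E x.q z := Real.exp_pos _
  have h9 : e x.q / 2 * x.d.E x.q z ≤ 1 / 2 * x.d.E x.q z :=
    mul_le_mul_of_nonneg_right (by linarith [hT.e1]) hE.le
  have h10 := hp.ve
  have h11 : fe cx x z = Real.exp (vB x.q x.d z) := fe_ix x hz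
  have h12 : fe cx x z * 1 ≤ fe cx x z * (mu (cx x).T : VV n → ℝ) z :=
    mul_le_mul_of_nonneg_left h2 (fe_pos cx x z).le
  rw [mul_one] at h12
  rw [h11] at h12 ⊢
  linarith

/-- The cells are open. -/
theorem Z_op (x : Ix n A T) {e : Cst → ℝ} (hT : TB n e x.q) : IsOpen x.Z := by
  refine (H696.B1.isOpen_OB x.ok hT).inter ?_
  have hm : Continuous fun z : VV n => (mid z : V n) :=
    (continuous_const (y := (1 / 2 : ℝ))).smul (continuous_fst.add continuous_snd)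
  have hC : IsOpen (Cub A x.p) := by
    have : Cub A x.p = ⋂ j : Fin n, {p : V n | |p j - x.p j| < 3 / 2 * A} := by
      ext p; simp [Cub]
    rw [this]
    exact isOpen_iInter_of_finite fun j =>
      isOpen_lt (((continuous_apply j : Continuous fun p : V n => p j).sub
        continuous_const).abs) (continuous_const : Continuous fun _ : V n => 3 / 2 * A)
  exact hC.preimage hm

/-- The numerical conditions on an index. -/
theorem nb_ix (x : Ix n A T) (h : Nb n x.q A x.η) {z : VV n} (hz : z ∈ x.Z) :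
    fδ x z * (mu (cx x).T : VV n → ℝ) z ≤ x.η ∧ kp x * fν cx fN x z ≤ x.η ∧
      1 ≤ x.η * fν cx fN x z := h x.d x.ok x.p x.c x.fr z hz

/-- **The sizes.** -/
theorem sc_ix (hZ : ∀ x : Ix n A T, IsOpen x.Z) (h : ∀ q η, T q η → Nb n q A η) :
    Sc (Gf cx Ix.Z hZ) (fe cx) (H961.F.fr cx) (ft cx fN) fδ (fun x _ => kp x)
      (fun x => (mu (cx x).T : VV n → ℝ)) (fν cx fN) fun (x : Ix n A T) _ => x.η where
  kd x z _ := by
    have := (r_pos cx x z).le
    show kp x ≤ kp x + H961.F.fr (fun x : Ix n A T => x.c) x z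
    exact le_add_of_nonneg_right this
  mu x z _ := (er2 cx x z).symm
  mu1 x z _ := mu_ge cx x z
  nu x z _ := (ert cx fN x z).symm
  h1 x z hz := (nb_ix x (h _ _ x.t) hz).1
  h2 x z hz := (nb_ix x (h _ _ x.t) hz).2.1
  h3 x z hz := (nb_ix x (h _ _ x.t) hz).2.2

end Vale.Agent.P088.R2.H724.B1
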